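import Mathlib
import Vale.Agent.P249.SimpleCoords
import Vale.Agent.P249.SpannerSampling

/-!
For every `p ≥ 1` and `D > 1` there is `C` such that every `n`-point subset of every `L_p(μ)`
embeds with distortion `D` into `ℓ_p^d` as soon as `d ≥ C n (log n)^(p+3)`.
-/

namespace Vale.Agent.P249.Extra.NearLinearDimension

open MeasureTheory Finset Vale.Agent.P249
open scoped ENNReal

/-- Near-linear dimension reduction in `L_p`, every `p ≥ 1`: there is `C` depending on `p` and
`D` with `d_p(n, D) ≤ C n (log n)^(p+3) + 1`. -/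
theorem result : ∀ (p D : ℝ), 1 ≤ p → 1 < D → ∃ C : ℝ, 0 < C ∧
    ∀ {α : Type*} [MeasurableSpace α] (μ : Measure α) (n : ℕ), 2 ≤ n →
    ∀ (x : Fin n → Lp ℝ (ENNReal.ofReal p) μ) (d : ℕ), C * n * Real.log n ^ (p + 3) ≤ d →
      ∃ (f : Fin n → Fin d → ℝ) (s : ℝ), 0 < s ∧ ∀ i j,
        s * dist (x i) (x j) ≤ (∑ k, |f i k - f j k| ^ p) ^ (1 / p) ∧
        (∑ k, |f i k - f j k| ^ p) ^ (1 / p) ≤ D * s * dist (x i) (x j) := by
  intro p D hp hD
  have hp0 : 0 < p := by linarith
  set r := Real.sqrt D with hr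
  have hr1 : 1 < r := by rw [hr, Real.lt_sqrt zero_le_one]; linarith
  have hrr : r * r = D := Real.mul_self_sqrt (by linarith)
  obtain ⟨C, hC, hfin⟩ := embed_near_linear hp (D := r ^ p) (Real.one_lt_rpow hr1 hp0)
  refine ⟨C, hC, ?_⟩
  intro α _ μ n hn x d hd
  classical
  have : Fact (1 ≤ ENNReal.ofReal p) := ⟨by simpa using hp⟩
  -- the smallest positive distance
  obtain ⟨δ, hδ, hδle⟩ : ∃ δ : ℝ, 0 < δ ∧ ∀ i j, x i ≠ x j → δ ≤ dist (x i) (x j) := by
    rcases ((univ : Finset (Fin n × Fin n)).filter fun z => x z.1 ≠ x z.2).eq_empty_or_nonempty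
      with h | h
    · exact ⟨1, one_pos, fun i j hij => absurd h
        (Nonempty.ne_empty ⟨(i, j), mem_filter.2 ⟨mem_univ _, hij⟩⟩)⟩
    · obtain ⟨z, hz, hmin⟩ := exists_min_image _ (fun z => dist (x z.1) (x z.2)) h
      exact ⟨_, dist_pos.2 (mem_filter.1 hz).2,
        fun i j hij => hmin (i, j) (mem_filter.2 ⟨mem_univ _, hij⟩)⟩
  set η := min (δ / 4) (δ * (r - 1) / (4 * (r + 1))) with hη
  have hη0 : 0 < η := lt_min (by linarith)
    (div_pos (mul_pos hδ (by linarith)) (by linarith))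
  have hη4 : η ≤ δ / 4 := min_le_left _ _
  have hηr : η * (4 * (r + 1)) ≤ δ * (r - 1) :=
    (le_div_iff₀ (by linarith)).1 (min_le_right _ _)
  have happrox : ∀ v : Lp ℝ (ENNReal.ofReal p) μ, ∃ g : SimpleFunc α ℝ,
      ∃ hg : MemLp g (ENNReal.ofReal p) μ, dist v (hg.toLp _) ≤ η := by
    intro v
    obtain ⟨g, hg1, hg2⟩ := (Lp.memLp v).exists_simpleFunc_eLpNorm_sub_lt
      ENNReal.ofReal_ne_top (ε := ENNReal.ofReal η) (by simpa using hη0)
    refine ⟨g, hg2, ?_⟩
    rw [Lp.dist_def]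
    refine ENNReal.toReal_le_of_le_ofReal hη0.le (le_trans (le_of_eq ?_) hg1.le)
    exact eLpNorm_congr_ae (Filter.EventuallyEq.rfl.sub hg2.coeFn_toLp)
  choose g hg hclose using happrox
  obtain ⟨ι, hι, z, hz⟩ := simple_coords hp (fun i => g (x i)) (fun i => hg (x i))
  set y : Fin n → Lp ℝ (ENNReal.ofReal p) μ := fun i => (hg (x i)).toLp _ with hy
  have hzd : ∀ i j, ∑ c, |z i c - z j c| ^ p = dist (y i) (y j) ^ p := fun i j => by
    rw [hz i j, dist_eq_norm]
  obtain ⟨f, s, hs, hf⟩ := hfin ι n hn z d hd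
  set q := (δ - 2 * η) / δ with hq
  have hq0 : 0 < q := div_pos (by linarith) hδ
  have hnear : ∀ i j, q * dist (x i) (x j) ≤ dist (y i) (y j) ∧
      dist (y i) (y j) ≤ r * q * dist (x i) (x j) := by
    intro i j
    by_cases hij : x i = x j
    · have : y i = y j := by simp only [hy, hij]
      rw [hij, this]; simp
    have hd' := hδle i j hij
    have h1 : dist (x i) (x j) ≤ dist (y i) (y j) + 2 * η := by
      have := dist_triangle4 (x i) (y i) (y j) (x j)
      have := hclose (x i)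
      have := hclose (x j)
      simp only [hy] at *
      rw [dist_comm ((hg (x j)).toLp _) (x j)] at *
      linarith
    have h2 : dist (y i) (y j) ≤ dist (x i) (x j) + 2 * η := by
      have := dist_triangle4 (y i) (x i) (x j) (y j)
      have := hclose (x i)
      have := hclose (x j)
      simp only [hy] at *
      rw [dist_comm ((hg (x i)).toLp _) (x i)] at *
      linarith
    have h3 : δ + 2 * η ≤ r * (δ - 2 * η) := by nlinarith
    have h4 := mul_le_mul_of_nonneg_left h3 (by linarith : 0 ≤ dist (x i) (x j))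
    constructor
    · rw [hq, div_mul_eq_mul_div, div_le_iff₀ hδ]; nlinarith
    · rw [hq, mul_div_assoc', div_mul_eq_mul_div, le_div_iff₀ hδ]; nlinarith
  refine ⟨f, s ^ (1 / p) * q, by positivity, fun i j => ?_⟩
  have hroot : ∀ c e : ℝ, 0 ≤ c → 0 ≤ e → (c * e ^ p) ^ (1 / p) = c ^ (1 / p) * e := by
    intro c e hc he
    rw [Real.mul_rpow hc (Real.rpow_nonneg he p), ← Real.rpow_mul he,
      mul_one_div_cancel hp0.ne', Real.rpow_one]
  obtain ⟨hl, hu⟩ := hf i j
  rw [hzd] at hl hu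
  constructor
  · calc s ^ (1 / p) * q * dist (x i) (x j) ≤ s ^ (1 / p) * dist (y i) (y j) := by
          rw [mul_assoc]; gcongr; exact (hnear i j).1
      _ = (s * dist (y i) (y j) ^ p) ^ (1 / p) := (hroot _ _ hs.le dist_nonneg).symm
      _ ≤ _ := by gcongr
  · calc (∑ k, |f i k - f j k| ^ p) ^ (1 / p)
        ≤ (r ^ p * s * dist (y i) (y j) ^ p) ^ (1 / p) := by gcongr
      _ = r * s ^ (1 / p) * dist (y i) (y j) := by
          rw [hroot _ _ (by positivity) dist_nonneg, Real.mul_rpow (by positivity) hs.le,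
            ← Real.rpow_mul (by linarith), mul_one_div_cancel hp0.ne', Real.rpow_one]
      _ ≤ r * s ^ (1 / p) * (r * q * dist (x i) (x j)) := by gcongr; exact (hnear i j).2
      _ = _ := by rw [← hrr]; ring

end Vale.Agent.P249.Extra.NearLinearDimension
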