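import Mathlib
import Vale.Agent.P249.LiftLp
import Vale.Agent.P249.Glue

/-!
Dimension reduction in `L_p`: for every `p ≥ 1` and every `γ > 0`, every `n`-point subset of
`L_p(μ)` embeds into `ℓ_p^d` with distortion `O_{p,γ}(1)` once `d ≥ C n^γ`.
-/

namespace Vale.Agent.P249.Extra.SmallPowerDimension

open MeasureTheory Finset Vale.Agent.P249
open scoped ENNReal

/-- For every `p ≥ 1` and `γ > 0` there are `D` and `C` with `d_p(n, D) ≤ C n^γ + 1` for all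
`n ≥ 2`; in particular `d_p(n, D) = o(n)` for every sufficiently large fixed `D`. -/
theorem result : ∀ (p γ : ℝ), 1 ≤ p → 0 < γ → ∃ D C : ℝ, 1 < D ∧ 0 < C ∧
    ∀ {α : Type*} [MeasurableSpace α] (μ : Measure α) (n : ℕ), 2 ≤ n →
    ∀ (x : Fin n → Lp ℝ (ENNReal.ofReal p) μ) (d : ℕ), C * (n:ℝ) ^ γ ≤ d →
      ∃ (f : Fin n → Fin d → ℝ) (s : ℝ), 0 < s ∧ ∀ i j,
        s * dist (x i) (x j) ≤ (∑ k, |f i k - f j k| ^ p) ^ (1 / p) ∧
        (∑ k, |f i k - f j k| ^ p) ^ (1 / p) ≤ D * s * dist (x i) (x j) := by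
  intro p γ hp hγ
  obtain ⟨E, C, hE, hC, hemb⟩ := embed_power hp hγ
  refine ⟨E * E, C, by nlinarith, hC, ?_⟩
  intro α _ μ n hn x d hd
  refine lift_to_Lp hp hE (fun ι _ z => ?_) μ x
  obtain ⟨f, hf⟩ := hemb ι n hn z d hd
  refine ⟨f, 1, one_pos, fun i j => ?_⟩
  obtain ⟨h1, h2⟩ := hf i j
  have e1 := nrm_rpow hp (fun c => z i c - z j c)
  have e2 := nrm_rpow hp (fun b => f i b - f j b)
  constructor
  · rw [one_mul, ← e1, ← e2]
    exact Real.rpow_le_rpow (nrm_nonneg _) h1 (by linarith)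
  · rw [mul_one, ← e1, ← e2, ← Real.mul_rpow (by linarith) (nrm_nonneg _)]
    exact Real.rpow_le_rpow (nrm_nonneg _) h2 (by linarith)

end Vale.Agent.P249.Extra.SmallPowerDimension
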